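import Vale.Agent.P039.H45.RankQ
import Vale.Agent.P039.H484.Hall2
import Vale.Agent.P039.Bz.Stmt

/-! STEP 5: two disjoint matchings (`PairStmt`). -/

namespace Vale.Agent.P039.H45

open Vale.Agent.P039.Bn Vale.Agent.P039.Bz Finset

variable {B W V : Type} [Fintype B] (M : PMap B W V) (K : Finset V)

open Classical in
/-- the edges with a face in `K` -/
noncomputable def UE : Finset (Fin 3 × B) :=
  univ.filter fun p => M.c (p.1 + 1) p.2 ∈ K ∨ M.c (p.1 + 2) p.2 ∈ K

/-- the graph with these edges -/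
def Rl (x y : B ⊕ W) : Prop :=
  ∃ e : UE M K, (Sum.inl e.1.2 : B ⊕ W) = x ∧ Sum.inr (M.e e.1.1 e.1.2) = y

/-- its components -/
abbrev Qt := Quotient (Relation.EqvGen.setoid (Rl M K))

theorem mem_UE (p : Fin 3 × B) :
    p ∈ UE M K ↔ (M.c (p.1 + 1) p.2 ∈ K ∨ M.c (p.1 + 2) p.2 ∈ K) := by
  classical
  simp [UE]

theorem sum3 (y : Fin 3 → ℚ) : ∑ i : Fin 3, (y (i + 2) - y (i + 1)) = 0 := by
  rw [Fin.sum_univ_three]
  show y 2 - y 1 + (y 0 - y 2) + (y 1 - y 0) = 0
  ring

open Classical in
/-- extension by zero -/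
noncomputable def ex (z : K → ℚ) (v : V) : ℚ := if h : v ∈ K then z ⟨v, h⟩ else 0

theorem ex_of_notMem (z : K → ℚ) {v : V} (h : v ∉ K) : ex K z v = 0 := by
  simp [ex, h]

theorem ex_coe (z : K → ℚ) (v : K) : ex K z v = z v := by
  simp [ex]

theorem ex_add (z z' : K → ℚ) (v : V) : ex K (z + z') v = ex K z v + ex K z' v := by
  by_cases h : v ∈ K <;> simp [ex, h]

theorem ex_smul (t : ℚ) (z : K → ℚ) (v : V) : ex K (t • z) v = t * ex K z v := by
  by_cases h : v ∈ K <;> simp [ex, h]

/-- the coboundary of a function on `K` -/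
noncomputable def Dl : (K → ℚ) →ₗ[ℚ] (UE M K → ℚ) where
  toFun z e := ex K z (M.c (e.1.1 + 2) e.1.2) - ex K z (M.c (e.1.1 + 1) e.1.2)
  map_add' z z' := by
    funext e
    simp only [ex_add, Pi.add_apply]
    ring
  map_smul' t z := by
    funext e
    simp only [ex_smul, Pi.smul_apply, smul_eq_mul, RingHom.id_apply]
    ring

theorem Dl_inj (hM : M.Conn) (b₀ : B) (hK : ∀ j, M.c j b₀ ∉ K) :
    Function.Injective (Dl M K) := by
  rw [← LinearMap.ker_eq_bot, LinearMap.ker_eq_bot']
  intro z hz
  have h1 : ∀ (i : Fin 3) (b : B), ex K z (M.c (i + 2) b) = ex K z (M.c (i + 1) b) := by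
    intro i b
    by_cases h : (i, b) ∈ UE M K
    · have := congrFun hz ⟨(i, b), h⟩
      have h2 : ex K z (M.c (i + 2) b) - ex K z (M.c (i + 1) b) = 0 := this
      linarith
    · rw [mem_UE] at h
      push Not at h
      rw [ex_of_notMem K z h.2, ex_of_notMem K z h.1]
  have h2 : ∀ (b : B) (i j : Fin 3), ex K z (M.c i b) = ex K z (M.c j b) := by
    intro b
    have e0 := h1 0 b
    have e1 := h1 1 b
    have e2 := h1 2 b
    have f0 : ex K z (M.c 2 b) = ex K z (M.c 1 b) := e0
    have f1 : ex K z (M.c 0 b) = ex K z (M.c 2 b) := e1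
    have f2 : ex K z (M.c 1 b) = ex K z (M.c 0 b) := e2
    intro i j
    fin_cases i <;> fin_cases j <;>
      first
      | rfl
      | (simp only [Fin.zero_eta, Fin.mk_one, Fin.reduceFinMk]; linarith)
  have h3 : ∀ b b', Relation.EqvGen (fun x y => ∃ j, M.c j x = M.c j y) b b' →
      ∀ i j, ex K z (M.c i b) = ex K z (M.c j b') := by
    intro b b' h
    induction h with
    | rel x y h =>
      obtain ⟨k, hk⟩ := h
      intro i j
      rw [h2 x i k, hk, h2 y k j]
    | refl x => exact h2 x
    | symm x y _ ih => exact fun i j => (ih j i).symm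
    | trans x y w _ _ ih1 ih2 => exact fun i j => (ih1 i 0).trans (ih2 0 j)
  funext v
  obtain ⟨j, b, hb⟩ := M.surj v.1
  have := h3 b b₀ (hM b b₀) j 0
  rw [hb, ex_coe, ex_of_notMem K z (hK 0)] at this
  exact this

theorem rank_ineq [Fintype W] (hM : M.Conn) (b₀ : B) (hK : ∀ j, M.c j b₀ ∉ K)
    [Fintype (Qt M K)] :
    K.card + 2 * Fintype.card B ≤ (UE M K).card + Fintype.card (Qt M K) := by
  classical
  have h := rank_q (E := UE M K) (U := B ⊕ W) (K := K) (Q := Qt M K)
    (fun e => Sum.inl e.1.2) (fun e => Sum.inr (M.e e.1.1 e.1.2)) (fun x => Quotient.mk _ x)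
    (fun x y hxy => Quotient.exact hxy) (Dl M K) (Dl_inj M K hM b₀ hK) (by
      intro z u
      set y := ex K z with hy
      have h1 : ∑ e : UE M K, ((if (Sum.inl e.1.2 : B ⊕ W) = u then (1 : ℚ) else 0) -
          (if (Sum.inr (M.e e.1.1 e.1.2) : B ⊕ W) = u then 1 else 0)) * Dl M K z e =
          ∑ p : Fin 3 × B, ((if (Sum.inl p.2 : B ⊕ W) = u then (1 : ℚ) else 0) -
          (if (Sum.inr (M.e p.1 p.2) : B ⊕ W) = u then 1 else 0)) *
            (y (M.c (p.1 + 2) p.2) - y (M.c (p.1 + 1) p.2)) := by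
        have h2 := Finset.sum_coe_sort (UE M K) (fun p : Fin 3 × B =>
          ((if (Sum.inl p.2 : B ⊕ W) = u then (1 : ℚ) else 0) -
          (if (Sum.inr (M.e p.1 p.2) : B ⊕ W) = u then 1 else 0)) *
            (y (M.c (p.1 + 2) p.2) - y (M.c (p.1 + 1) p.2)))
        refine Eq.trans ?_ (h2.trans ?_)
        · rfl
        · apply Finset.sum_subset (Finset.subset_univ _)
          intro p _ hp
          rw [mem_UE] at hp
          push Not at hp
          rw [hy, ex_of_notMem K z hp.2, ex_of_notMem K z hp.1]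
          simp
      rw [h1, Fintype.sum_prod_type]
      rcases u with b | w
      · simp only [Sum.inl.injEq, reduceCtorEq, if_false, sub_zero, ite_mul, one_mul, zero_mul,
          Finset.sum_ite_eq', Finset.mem_univ, if_true]
        exact sum3 fun j => y (M.c j b)
      · simp only [Sum.inr.injEq, reduceCtorEq, if_false, zero_sub]
        have h3 : ∀ i : Fin 3, ∑ b : B, -(if M.e i b = w then (1 : ℚ) else 0) *
            (y (M.c (i + 2) b) - y (M.c (i + 1) b)) = -(y (M.cw (i + 2) w) - y (M.cw (i + 1) w)) := by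
          intro i
          rw [Finset.sum_eq_single ((M.e i).symm w)]
          · rw [M.cw_symm (i + 2) i (by revert i; decide), M.cw_symm (i + 1) i (by revert i; decide)]
            simp
          · intro b _ hb
            have : M.e i b ≠ w := by
              intro h
              exact hb ((Equiv.eq_symm_apply _).2 h)
            simp [this]
          · intro h
            exact absurd (Finset.mem_univ _) h
        rw [Finset.sum_congr rfl fun i _ => h3 i, Finset.sum_neg_distrib,
          sum3 fun j => y (M.cw j w), neg_zero])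
  have h1 : Fintype.card W = Fintype.card B := (Fintype.card_congr (M.e 0)).symm
  rw [Fintype.card_sum, Fintype.card_coe, Fintype.card_coe, h1] at h
  omega

/-! ### The components -/

/-- the vertex is isolated -/
def Iso (x : B ⊕ W) : Prop := ∀ y, ¬ Rl M K x y ∧ ¬ Rl M K y x

theorem iso_eq {x y : B ⊕ W} (h : Relation.EqvGen (Rl M K) x y) : (Iso M K x ∨ Iso M K y) → x = y := by
  induction h with
  | rel x y h =>
    rintro (h1 | h1)
    · exact absurd h (h1 y).1
    · exact absurd h (h1 x).2
  | refl x => exact fun _ => rfl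
  | symm x y _ ih => exact fun h => (ih h.symm).symm
  | trans x y z _ _ ih1 ih2 =>
    rintro (h1 | h1)
    · have h2 := ih1 (Or.inl h1)
      subst h2
      exact ih2 (Or.inl h1)
    · have h2 := ih2 (Or.inr h1)
      subst h2
      exact ih1 (Or.inr h1)

theorem iso_inl {b : B} (h : ∀ i, (i, b) ∉ UE M K) : Iso M K (Sum.inl b) := by
  intro y
  constructor
  · rintro ⟨⟨⟨i, b'⟩, he⟩, h1, -⟩
    have h2 : b' = b := Sum.inl_injective h1
    subst h2
    exact h i he
  · rintro ⟨e, -, h1⟩
    exact absurd h1 (by simp)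

theorem of_iso_inl {b : B} (h : Iso M K (Sum.inl b)) (i : Fin 3) : (i, b) ∉ UE M K := by
  intro he
  exact (h (Sum.inr (M.e i b))).1 ⟨⟨(i, b), he⟩, rfl, rfl⟩

/-- the component -/
def pr (x : B ⊕ W) : Qt M K := Quotient.mk _ x

theorem pr_eq {x y : B ⊕ W} : pr M K x = pr M K y ↔ Relation.EqvGen (Rl M K) x y :=
  ⟨fun h => Quotient.exact h, fun h => Quotient.sound h⟩

theorem pr_e {i : Fin 3} {b : B} (h : (i, b) ∈ UE M K) :
    pr M K (Sum.inl b) = pr M K (Sum.inr (M.e i b)) :=
  (pr_eq M K).2 (Relation.EqvGen.rel _ _ ⟨⟨(i, b), h⟩, rfl, rfl⟩)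

open Classical in
theorem comp_ineq [Fintype W] (h3 : C3 M) (h4 : C4 M) (b₀ : B) (hK : ∀ j, M.c j b₀ ∉ K)
    (q : Qt M K) :
    ((UE M K).filter fun p => pr M K (Sum.inl p.2) = q).card + 2 ≤
      (univ.filter fun b => pr M K (Sum.inl b) = q).card +
      2 * (univ.filter fun w => pr M K (Sum.inr w) = q).card +
      (univ.filter fun b => (∀ i, (i, b) ∉ UE M K) ∧ pr M K (Sum.inl b) = q).card := by
  obtain ⟨x, hx⟩ := Quotient.exists_rep q
  have hx : pr M K x = q := hx
  by_cases hi : Iso M K x
  · rcases x with b | w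
    · have e1 : 0 < (univ.filter fun b => pr M K (Sum.inl b) = q).card :=
        card_pos.2 ⟨b, by simp [hx]⟩
      have e2 : 0 < (univ.filter fun b => (∀ i, (i, b) ∉ UE M K) ∧
          pr M K (Sum.inl b) = q).card :=
        card_pos.2 ⟨b, by simp only [mem_filter, mem_univ, true_and]; exact ⟨of_iso_inl M K hi, hx⟩⟩
      have e3 : ((UE M K).filter fun p => pr M K (Sum.inl p.2) = q).card = 0 := by
        rw [card_eq_zero, filter_eq_empty_iff]
        rintro ⟨i, b'⟩ hp h
        have h5 : b' = b := Sum.inl_injective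
          (iso_eq M K ((pr_eq M K).1 (h.trans hx.symm)) (Or.inr hi))
        subst h5
        exact of_iso_inl M K hi i hp
      omega
    · have e1 : 0 < (univ.filter fun w => pr M K (Sum.inr w) = q).card :=
        card_pos.2 ⟨w, by simp [hx]⟩
      have e3 : ((UE M K).filter fun p => pr M K (Sum.inl p.2) = q).card = 0 := by
        rw [card_eq_zero, filter_eq_empty_iff]
        rintro ⟨i, b'⟩ hp h
        have h5 := iso_eq M K ((pr_eq M K).1 (h.trans hx.symm)) (Or.inr hi)
        exact absurd h5 (by simp)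
      omega
  · -- no vertex of the component is isolated
    have hno : ∀ y, pr M K y = q → ¬ Iso M K y := by
      intro y hy h
      have h5 := iso_eq M K ((pr_eq M K).1 (hy.trans hx.symm)) (Or.inl h)
      exact hi (h5 ▸ h)
    obtain ⟨⟨i₁, b₁⟩, he₁, hb₁⟩ : ∃ p : Fin 3 × B, p ∈ UE M K ∧ pr M K (Sum.inl p.2) = q := by
      unfold Iso at hi
      push Not at hi
      obtain ⟨y, hy⟩ := hi
      by_cases h5 : Rl M K x y
      · obtain ⟨e, h6, h7⟩ := h5
        exact ⟨e.1, e.2, by rw [h6, hx]⟩
      · obtain ⟨e, h6, h7⟩ := hy h5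
        exact ⟨e.1, e.2, by rw [pr_e M K e.2, h7, hx]⟩
    set S : Set B := {b | pr M K (Sum.inl b) = q} with hS
    set T : Set W := {w | pr M K (Sum.inr w) = q} with hT
    have hb1S : b₁ ∈ S := hb₁
    have hw1T : M.e i₁ b₁ ∈ T := by
      show pr M K _ = q
      rw [← pr_e M K he₁]
      exact hb₁
    have hb0 : b₀ ∉ S := by
      intro h
      refine hno _ h (iso_inl M K fun i hi => ?_)
      rw [mem_UE] at hi
      rcases hi with hi | hi
      · exact hK _ hi
      · exact hK _ hi
    have hUE : ∀ p : Fin 3 × B, p ∈ UE M K → (p.2 ∈ S ↔ M.e p.1 p.2 ∈ T) := by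
      rintro ⟨i, b⟩ hp
      show pr M K _ = q ↔ pr M K _ = q
      rw [← pr_e M K hp]
    set c1 := (univ.filter fun p : Fin 3 × B => p.2 ∈ S ∧ M.e p.1 p.2 ∉ T).card with hc1
    set c2 := (univ.filter fun p : Fin 3 × B => p.2 ∉ S ∧ M.e p.1 p.2 ∈ T).card with hc2
    set h := (univ.filter fun p : Fin 3 × B => p ∉ UE M K ∧ p.2 ∈ S ∧ M.e p.1 p.2 ∈ T).card with hh
    have hcut : cutc M S T = c1 + c2 := by
      unfold cutc
      rw [hc1, hc2, card_filter, card_filter, card_filter, ← sum_add_distrib]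
      refine sum_congr rfl fun p _ => ?_
      by_cases h5 : p.2 ∈ S <;> by_cases h6 : M.e p.1 p.2 ∈ T <;> simp [h5, h6]
    have hE : ((UE M K).filter fun p => pr M K (Sum.inl p.2) = q).card =
        ∑ p : Fin 3 × B, if p ∈ UE M K ∧ p.2 ∈ S then 1 else 0 := by
      rw [← card_filter]
      congr 1
      ext p
      simp [hS]
    have hnB : 3 * (univ.filter fun b => pr M K (Sum.inl b) = q).card =
        ((UE M K).filter fun p => pr M K (Sum.inl p.2) = q).card + h + c1 := by
      have h5 : 3 * (univ.filter fun b => pr M K (Sum.inl b) = q).card =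
          ∑ p : Fin 3 × B, if p.2 ∈ S then 1 else 0 := by
        rw [Fintype.sum_prod_type, card_filter]
        show _ = ∑ i : Fin 3, ∑ b : B, if b ∈ S then 1 else 0
        rw [Finset.sum_const, card_univ, Fintype.card_fin, smul_eq_mul]
        rfl
      rw [h5, hE, hc1, hh, card_filter, card_filter, ← sum_add_distrib, ← sum_add_distrib]
      refine sum_congr rfl fun p _ => ?_
      have h6 := hUE p
      by_cases h7 : p ∈ UE M K
      · have h8 := h6 h7
        by_cases h9 : p.2 ∈ S
        · have h10 := h8.1 h9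
          simp [h7, h9, h10]
        · simp [h9]
      · by_cases h9 : p.2 ∈ S <;> by_cases h10 : M.e p.1 p.2 ∈ T <;> simp [h7, h9, h10]
    have hnW : 3 * (univ.filter fun w => pr M K (Sum.inr w) = q).card =
        ((UE M K).filter fun p => pr M K (Sum.inl p.2) = q).card + h + c2 := by
      have h5 : 3 * (univ.filter fun w => pr M K (Sum.inr w) = q).card =
          ∑ p : Fin 3 × B, if M.e p.1 p.2 ∈ T then 1 else 0 := by
        rw [Fintype.sum_prod_type]
        have h6 : ∀ i : Fin 3, ∑ b : B, (if M.e i b ∈ T then 1 else 0) =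
            ∑ w : W, if w ∈ T then 1 else 0 := fun i =>
          Equiv.sum_comp (M.e i) (fun w => if w ∈ T then 1 else 0)
        simp only [h6, sum_const, card_univ, Fintype.card_fin, smul_eq_mul]
        rw [card_filter]
        rfl
      rw [h5, hE, hc2, hh, card_filter, card_filter, ← sum_add_distrib, ← sum_add_distrib]
      refine sum_congr rfl fun p _ => ?_
      have h6 := hUE p
      by_cases h7 : p ∈ UE M K
      · have h8 := h6 h7
        by_cases h9 : p.2 ∈ S
        · have h10 := h8.1 h9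
          simp [h7, h9, h10]
        · have h10 : M.e p.1 p.2 ∉ T := fun h => h9 (h8.2 h)
          simp [h9, h10]
      · by_cases h9 : p.2 ∈ S <;> by_cases h10 : M.e p.1 p.2 ∈ T <;> simp [h7, h9, h10]
    have h33 : 3 ≤ c1 + c2 := by
      rw [← hcut]
      exact h3 S T (Or.inl ⟨b₁, hb1S⟩) (Or.inl ⟨b₀, hb0⟩)
    have h44 : c1 + c2 = 3 → 3 ≤ c2 := by
      intro h5
      rw [← hcut] at h5
      have hS1 : 0 < S.ncard := (Set.ncard_pos (Set.toFinite _)).2 ⟨b₁, hb1S⟩
      have hT1 : 0 < T.ncard := (Set.ncard_pos (Set.toFinite _)).2 ⟨_, hw1T⟩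
      have hS2 : 0 < Sᶜ.ncard := (Set.ncard_pos (Set.toFinite _)).2 ⟨b₀, hb0⟩
      rcases h4 S T h5 with h6 | h6
      · omega
      · have h7 : Tᶜ.ncard = 0 := by omega
        rw [Set.ncard_eq_zero (Set.toFinite _)] at h7
        have h8 : ∀ w, w ∈ T := by
          intro w
          by_contra h9
          have : w ∈ Tᶜ := h9
          rw [h7] at this
          exact this
        have h9 : ((univ : Finset (Fin 3)).image fun i => (i, b₀)).card = 3 := by
          rw [card_image_of_injective _ (fun x y hxy => by simpa using hxy)]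
          rfl
        rw [← h9, hc2]
        refine card_le_card fun p hp => ?_
        simp only [mem_image, mem_univ, true_and] at hp
        obtain ⟨i, rfl⟩ := hp
        simp only [mem_filter, mem_univ, true_and]
        exact ⟨hb0, h8 _⟩
    omega

theorem pattern (P : Fin 3 → Prop) [DecidablePred P] :
    (univ.filter fun i : Fin 3 => P (i + 1) ∨ P (i + 2)).card +
      (if ∀ i : Fin 3, ¬ (P (i + 1) ∨ P (i + 2)) then 1 else 0) ≤
      min 2 (univ.filter fun j => P j).card + 1 := by
  have key : ∀ p : Fin 3 → Bool,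
      (univ.filter fun i : Fin 3 => p (i + 1) = true ∨ p (i + 2) = true).card +
      (if ∀ i : Fin 3, ¬ (p (i + 1) = true ∨ p (i + 2) = true) then 1 else 0) ≤
      min 2 (univ.filter fun j => p j = true).card + 1 := by decide
  have := key fun j => decide (P j)
  simpa only [decide_eq_true_eq] using this

open Classical in
/-- The inequality for the set `K` of faces. -/
theorem main_ineq [Fintype W] (hM : M.Conn) (h3 : C3 M) (h4 : C4 M) (b₀ : B)
    (hK : ∀ j, M.c j b₀ ∉ K) :
    2 * K.card ≤ ∑ b : B, min 2 (univ.filter fun j => M.c j b ∈ K).card := by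
  have hR := rank_ineq M K hM b₀ hK
  have hC := sum_le_sum fun (q : Qt M K) (_ : q ∈ univ) => comp_ineq M K h3 h4 b₀ hK q
  have s1 : ∑ q : Qt M K, ((UE M K).filter fun p => pr M K (Sum.inl p.2) = q).card =
      (UE M K).card := (card_eq_sum_card_fiberwise fun _ _ => mem_coe.2 (mem_univ _)).symm
  have s2 : ∑ q : Qt M K, (univ.filter fun b => pr M K (Sum.inl b) = q).card =
      Fintype.card B := (card_eq_sum_card_fiberwise fun _ _ => mem_coe.2 (mem_univ _)).symm
  have s3 : ∑ q : Qt M K, (univ.filter fun w => pr M K (Sum.inr w) = q).card =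
      Fintype.card W := (card_eq_sum_card_fiberwise fun _ _ => mem_coe.2 (mem_univ _)).symm
  have s4 : ∑ q : Qt M K, (univ.filter fun b => (∀ i, (i, b) ∉ UE M K) ∧
      pr M K (Sum.inl b) = q).card = (univ.filter fun b => ∀ i, (i, b) ∉ UE M K).card := by
    rw [card_eq_sum_card_fiberwise (s := univ.filter fun b => ∀ i, (i, b) ∉ UE M K)
      (f := fun b => pr M K (Sum.inl b)) (t := univ) fun _ _ => mem_coe.2 (mem_univ _)]
    refine sum_congr rfl fun q _ => ?_
    rw [filter_filter]
  simp only [sum_add_distrib, ← mul_sum] at hC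
  rw [s1, s2, s3, s4] at hC
  simp only [sum_const, card_univ, smul_eq_mul] at hC
  have hW : Fintype.card W = Fintype.card B := (Fintype.card_congr (M.e 0)).symm
  have hU : (UE M K).card = ∑ b : B,
      (univ.filter fun i : Fin 3 => M.c (i + 1) b ∈ K ∨ M.c (i + 2) b ∈ K).card := by
    unfold UE
    rw [card_filter, Fintype.sum_prod_type_right]
    refine sum_congr rfl fun b _ => ?_
    rw [card_filter]
  have hI : (univ.filter fun b => ∀ i, (i, b) ∉ UE M K).card = ∑ b : B,
      (if ∀ i : Fin 3, ¬ (M.c (i + 1) b ∈ K ∨ M.c (i + 2) b ∈ K) then 1 else 0) := by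
    rw [card_filter]
    refine sum_congr rfl fun b _ => ?_
    simp only [mem_UE]
  have hB : ∑ b : B, ((univ.filter fun i : Fin 3 => M.c (i + 1) b ∈ K ∨ M.c (i + 2) b ∈ K).card +
      (if ∀ i : Fin 3, ¬ (M.c (i + 1) b ∈ K ∨ M.c (i + 2) b ∈ K) then 1 else 0)) ≤
      ∑ b : B, (min 2 (univ.filter fun j => M.c j b ∈ K).card + 1) :=
    sum_le_sum fun b _ => pattern fun j => M.c j b ∈ K
  rw [sum_add_distrib, sum_add_distrib, ← hU, ← hI] at hB
  simp only [sum_const, card_univ, smul_eq_mul] at hB
  omega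

theorem card_off [Fintype V] (hM : M.Sph) (b₀ : B) [Fintype (BOff b₀)] [Fintype (VOff M b₀)] :
    Fintype.card (BOff b₀) = Fintype.card (VOff M b₀) := by
  classical
  have h1 : Fintype.card (BOff b₀) = Fintype.card B - 1 := by
    rw [Fintype.card_subtype, Finset.filter_ne' univ b₀, card_erase_of_mem (mem_univ _), card_univ]
  have h2 : Fintype.card (VOff M b₀) = Fintype.card V - 3 := by
    rw [Fintype.card_subtype]
    have h3 : (univ.filter fun v => ∀ j, M.c j b₀ ≠ v) = univ \ univ.image fun j => M.c j b₀ := by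
      ext v
      simp
    rw [h3, card_sdiff_of_subset (subset_univ _), card_image_of_injective _
      (fun i j h => M.cls i j b₀ b₀ h)]
    simp
  have := hM.card
  omega

open Classical in
/-- STEP 5. -/
theorem pairStmt : PairStmt := by
  intro B W V _ _ _ M hM h3 h4 b₀
  obtain ⟨f, g, φ, ψ, hfg, hf, hg⟩ := H484.two_matchings_option (Fo M b₀) (card_off M hM b₀) (by
    intro K
    set K' : Finset V := K.map (Function.Embedding.subtype _) with hK'
    have hKK : K'.card = K.card := card_map _
    have hK0 : ∀ j, M.c j b₀ ∉ K' := by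
      intro j hj
      rw [hK', mem_map] at hj
      obtain ⟨v, -, hv⟩ := hj
      exact v.2 j hv.symm
    have h := main_ineq M K' hM.conn h3 h4 b₀ hK0
    have h1 : ∑ b : B, min 2 (univ.filter fun j => M.c j b ∈ K').card =
        ∑ b : BOff b₀, min 2 (univ.filter fun j => M.c j b.1 ∈ K').card := by
      rw [← Finset.sum_subtype (univ.filter fun b => b ≠ b₀) (p := fun b => b ≠ b₀) (by simp)
        (fun b => min 2 (univ.filter fun j => M.c j b ∈ K').card)]
      refine (Finset.sum_subset (Finset.subset_univ _) fun b _ hb => ?_).symm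
      have hb' : b = b₀ := by simpa using hb
      subst hb'
      simp [hK0]
    rw [← hKK]
    refine h.trans (h1.le.trans (le_of_eq (sum_congr rfl fun b _ => ?_)))
    congr 2
    ext j
    simp only [mem_filter, mem_univ, true_and]
    constructor
    · intro h5
      rw [hK', mem_map] at h5
      obtain ⟨v, hv, hv2⟩ := h5
      refine ⟨v, hv, ?_⟩
      have hv2 : v.1 = M.c j b.1 := hv2
      have h6 : ∀ i, M.c i b₀ ≠ M.c j b.1 := fun i => hv2 ▸ v.2 i
      unfold Fo
      rw [dif_pos h6]
      exact congrArg some (Subtype.ext hv2.symm)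
    · rintro ⟨v, hv, h5⟩
      unfold Fo at h5
      split_ifs at h5 with h6
      have h7 := Option.some.inj h5
      rw [hK', mem_map]
      exact ⟨v, hv, by rw [← h7]; rfl⟩)
  exact ⟨f, g, ⟨φ, hf⟩, ⟨ψ, hg⟩, hfg⟩

end Vale.Agent.P039.H45
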