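import Mathlib.LinearAlgebra.Matrix.Rank
import Mathlib.Data.Rat.Defs
import Mathlib.Tactic

/-! The rank inequality for a graph with any number of components. -/

namespace Vale.Agent.P039.H45

open Matrix

variable {E U K Q : Type*} [Fintype E] [Fintype U] [Fintype K] [Fintype Q] [DecidableEq U]

theorem rank_q (a b : E → U) (q : U → Q)
    (hq : ∀ x y, q x = q y → Relation.EqvGen (fun x y => ∃ e, a e = x ∧ b e = y) x y)
    (D : (K → ℚ) →ₗ[ℚ] (E → ℚ)) (hD : Function.Injective D)
    (hA : ∀ z u, ∑ e, ((if a e = u then (1 : ℚ) else 0) - (if b e = u then 1 else 0)) * D z e = 0) :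
    Fintype.card K + Fintype.card U ≤ Fintype.card E + Fintype.card Q := by
  classical
  let A : Matrix U E ℚ := fun u e => (if a e = u then (1 : ℚ) else 0) - (if b e = u then 1 else 0)
  have h1 : Module.finrank ℚ (LinearMap.range D) = Fintype.card K := by
    rw [LinearMap.finrank_range_of_inj hD, Module.finrank_fintype_fun_eq_card]
  have h2 : LinearMap.range D ≤ LinearMap.ker A.mulVecLin := by
    rintro _ ⟨z, rfl⟩
    rw [LinearMap.mem_ker]
    funext u
    exact hA z u
  have h3 : Fintype.card K ≤ Module.finrank ℚ (LinearMap.ker A.mulVecLin) := by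
    rw [← h1]
    exact Submodule.finrank_mono h2
  have h4 : A.rank + Module.finrank ℚ (LinearMap.ker A.mulVecLin) = Fintype.card E := by
    have := LinearMap.finrank_range_add_finrank_ker A.mulVecLin
    rwa [Module.finrank_fintype_fun_eq_card] at this
  have h5 : Aᵀ.rank + Module.finrank ℚ (LinearMap.ker Aᵀ.mulVecLin) = Fintype.card U := by
    have := LinearMap.finrank_range_add_finrank_ker Aᵀ.mulVecLin
    rwa [Module.finrank_fintype_fun_eq_card] at this
  have h6 : Aᵀ.rank = A.rank := Matrix.rank_transpose A
  have h7 : LinearMap.ker Aᵀ.mulVecLin ≤ LinearMap.range (LinearMap.funLeft ℚ ℚ q) := by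
    intro y hy
    rw [LinearMap.mem_ker] at hy
    have hy' : ∀ e, y (a e) = y (b e) := by
      intro e
      have h : ∑ x, ((if a e = x then (1 : ℚ) else 0) - (if b e = x then 1 else 0)) * y x = 0 :=
        congrFun hy e
      simp only [sub_mul, Finset.sum_sub_distrib, ite_mul, one_mul, zero_mul, Finset.sum_ite_eq,
        Finset.mem_univ, if_true] at h
      linarith
    have hy2 : ∀ x x', Relation.EqvGen (fun x y => ∃ e, a e = x ∧ b e = y) x x' → y x = y x' := by
      intro x x' h
      induction h with
      | rel x x' h => obtain ⟨e, rfl, rfl⟩ := h; exact hy' e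
      | refl x => rfl
      | symm x y _ ih => exact ih.symm
      | trans x y z _ _ ih1 ih2 => exact ih1.trans ih2
    refine ⟨fun c => if h : ∃ u, q u = c then y h.choose else 0, ?_⟩
    funext u
    have hu : ∃ u', q u' = q u := ⟨u, rfl⟩
    simp only [LinearMap.funLeft_apply, hu, dif_pos]
    exact hy2 _ _ (hq _ _ hu.choose_spec)
  have h8 : Module.finrank ℚ (LinearMap.ker Aᵀ.mulVecLin) ≤ Fintype.card Q := by
    refine (Submodule.finrank_mono h7).trans ?_
    refine (LinearMap.finrank_range_le _).trans ?_
    rw [Module.finrank_fintype_fun_eq_card]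
  omega

end Vale.Agent.P039.H45
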